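import Mathlib

/-!
Periodization of compactly supported smooth functions.
-/

namespace Vale.Agent.P113.H854

open Set Filter Topology

/-- periodization -/
noncomputable def per (g : ℝ → ℝ) (y : ℝ) : ℝ := ∑' m : ℤ, g (y + m)

/-- Local finiteness: near `y0` only the translates with `|m| ≤ N` contribute. -/
theorem exists_nhds_finite {g : ℝ → ℝ} (hg : HasCompactSupport g) (y0 : ℝ) :
    ∃ s : Finset ℤ, ∀ y, |y - y0| < 1 → ∀ m : ℤ, m ∉ s → g (y + m) = 0 := by
  obtain ⟨R, hR⟩ := hg.isBounded.subset_closedBall (0 : ℝ)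
  set B : ℤ := ⌈|y0| + 1 + |R|⌉ with hB
  refine ⟨Finset.Icc (-B) B, fun y hy m hm => ?_⟩
  by_contra hne
  have hmem : y + m ∈ tsupport g := subset_tsupport _ hne
  have h1 := hR hmem
  rw [Metric.mem_closedBall, dist_zero_right, Real.norm_eq_abs] at h1
  apply hm
  rw [Finset.mem_Icc]
  have hBle : |y0| + 1 + |R| ≤ (B : ℝ) := Int.le_ceil _
  have hR' : R ≤ |R| := le_abs_self R
  have h2 := abs_le.1 h1
  have h3 := abs_lt.1 hy
  have h4 := abs_le.1 (le_refl |y0|)
  constructor
  · have : (-(B : ℝ)) ≤ m := by linarith [h2.1, h2.2, h3.1, h3.2, h4.1, h4.2]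
    exact_mod_cast this
  · have : (m : ℝ) ≤ B := by linarith [h2.1, h2.2, h3.1, h3.2, h4.1, h4.2]
    exact_mod_cast this

theorem per_eventuallyEq {g : ℝ → ℝ} (hg : HasCompactSupport g) (y0 : ℝ) :
    ∃ s : Finset ℤ, ∀ y, |y - y0| < 1 → per g y = ∑ m ∈ s, g (y + m) := by
  obtain ⟨s, hs⟩ := exists_nhds_finite hg y0
  exact ⟨s, fun y hy => tsum_eq_sum (fun m hm => hs y hy m hm)⟩

theorem per_summable {g : ℝ → ℝ} (hg : HasCompactSupport g) (y : ℝ) :
    Summable (fun m : ℤ => g (y + m)) := by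
  obtain ⟨s, hs⟩ := exists_nhds_finite hg y
  exact summable_of_ne_finset_zero (s := s) (fun m hm => hs y (by simp) m hm)

theorem per_periodic (g : ℝ → ℝ) (y : ℝ) : per g (y + 1) = per g y := by
  unfold per
  rw [← (Equiv.addRight (1 : ℤ)).tsum_eq (fun m : ℤ => g (y + m))]
  refine tsum_congr fun m => ?_
  simp only [Equiv.coe_addRight]
  congr 1; push_cast; ring

theorem per_add_int (g : ℝ → ℝ) (y : ℝ) (n : ℤ) : per g (y + n) = per g y := by
  unfold per
  rw [← (Equiv.addRight (n : ℤ)).tsum_eq (fun m : ℤ => g (y + m))]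
  refine tsum_congr fun m => ?_
  simp only [Equiv.coe_addRight]
  congr 1; push_cast; ring

theorem nhds_lt_one (y0 : ℝ) : ∀ᶠ y in 𝓝 y0, |y - y0| < 1 := by
  have : Metric.ball y0 1 ∈ 𝓝 y0 := Metric.ball_mem_nhds _ one_pos
  filter_upwards [this] with y hy
  rwa [Metric.mem_ball, Real.dist_eq] at hy

theorem per_hasDerivAt {g g' : ℝ → ℝ} (hg : HasCompactSupport g)
    (hd : ∀ y, HasDerivAt g (g' y) y) (y0 : ℝ) : HasDerivAt (per g) (per g' y0) y0 := by
  have hg' : HasCompactSupport g' := by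
    have : g' = deriv g := by funext y; exact (hd y).deriv.symm
    rw [this]; exact hg.deriv
  obtain ⟨s, hs⟩ := exists_nhds_finite hg y0
  obtain ⟨s', hs'⟩ := exists_nhds_finite hg' y0
  have e1 : per g =ᶠ[𝓝 y0] fun y => ∑ m ∈ s ∪ s', g (y + m) := by
    filter_upwards [nhds_lt_one y0] with y hy
    exact tsum_eq_sum (fun m hm => hs y hy m (fun h => hm (Finset.mem_union_left _ h)))
  have e2 : per g' y0 = ∑ m ∈ s ∪ s', g' (y0 + m) :=
    tsum_eq_sum (fun m hm => hs' y0 (by simp) m (fun h => hm (Finset.mem_union_right _ h)))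
  rw [e2]
  refine HasDerivAt.congr_of_eventuallyEq ?_ e1
  refine HasDerivAt.fun_sum fun m _ => ?_
  exact (hd (y0 + m)).comp_add_const y0 m

theorem per_deriv {g : ℝ → ℝ} (hg : HasCompactSupport g) (hd : Differentiable ℝ g) :
    deriv (per g) = per (deriv g) := by
  funext y
  exact (per_hasDerivAt hg (fun y => (hd y).hasDerivAt) y).deriv

theorem per_contDiff {g : ℝ → ℝ} {n : ℕ∞} (hg : HasCompactSupport g) (hd : ContDiff ℝ n g) :
    ContDiff ℝ n (per g) := by
  rw [contDiff_iff_contDiffAt]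
  intro y0
  obtain ⟨s, hs⟩ := per_eventuallyEq hg y0
  have : per g =ᶠ[𝓝 y0] fun y => ∑ m ∈ s, g (y + m) := by
    filter_upwards [nhds_lt_one y0] with y hy
    exact hs y hy
  refine ContDiffAt.congr_of_eventuallyEq ?_ this
  refine ContDiffAt.sum fun m _ => ?_
  exact (hd.comp (contDiff_id.add contDiff_const)).contDiffAt

theorem per_continuous {g : ℝ → ℝ} (hg : HasCompactSupport g) (hd : Continuous g) :
    Continuous (per g) := by
  have := per_contDiff (n := 0) hg (contDiff_zero.2 hd)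
  exact contDiff_zero.1 this

/-- If `g` vanishes outside `(0,1)`, its periodization equals `g` on `[0,1]`. -/
theorem per_eq_self {g : ℝ → ℝ} (hg : ∀ y, y ≤ 0 ∨ 1 ≤ y → g y = 0) {y : ℝ}
    (h0 : 0 ≤ y) (h1 : y ≤ 1) : per g y = g y := by
  unfold per
  rw [tsum_eq_single (0 : ℤ)]
  · simp
  · intro m hm
    apply hg
    rcases lt_or_gt_of_ne hm with hm | hm
    · left
      have : (m : ℝ) ≤ -1 := by exact_mod_cast (by omega : m ≤ -1)
      linarith
    · right
      have : (1 : ℝ) ≤ m := by exact_mod_cast hm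
      linarith

/-- If `g` vanishes outside `(0,1)`, its periodization at `y` is `g (fract y)`. -/
theorem per_eq_fract {g : ℝ → ℝ} (hg : ∀ y, y ≤ 0 ∨ 1 ≤ y → g y = 0) (y : ℝ) :
    per g y = g (Int.fract y) := by
  have h1 : per g y = per g (Int.fract y) := by
    rw [← per_add_int g (Int.fract y) ⌊y⌋, Int.fract_add_floor]
  rw [h1, per_eq_self hg (Int.fract_nonneg y) (Int.fract_lt_one y).le]

theorem per_add {g₁ g₂ : ℝ → ℝ} (h1 : HasCompactSupport g₁) (h2 : HasCompactSupport g₂) (y : ℝ) :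
    per (fun s => g₁ s + g₂ s) y = per g₁ y + per g₂ y :=
  (per_summable h1 y).tsum_add (per_summable h2 y)

theorem per_const_mul (c : ℝ) (g : ℝ → ℝ) (y : ℝ) :
    per (fun s => c * g s) y = c * per g y := by
  unfold per; rw [tsum_mul_left]

end Vale.Agent.P113.H854
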