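import Vale.Agent.P113.H854.NS
import Vale.Agent.P113.Defs

/-!
The shear velocity is a global smooth solution in the sense of `Vale.Agent.P113.Defs`.
-/

namespace Vale.Agent.P113.H854

open Set Filter Topology MeasureTheory
open scoped ContDiff

theorem update_eq (x : E3) (j : Fin 3) (s : ℝ) :
    Function.update x j s = x + (s - x j) • ee j := by
  funext i
  by_cases hi : i = j
  · subst hi; simp [ee]
  · simp [hi, ee]

theorem hasDerivAt_update {f : E3 → ℝ} {x : E3} (hf : DifferentiableAt ℝ f x) (j : Fin 3) :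
    HasDerivAt (fun s => f (Function.update x j s)) (pd j f x) (x j) := by
  have h2 : HasDerivAt (fun s : ℝ => x + (s - x j) • ee j) (ee j) (x j) := by
    simpa using (((hasDerivAt_id (x j)).sub_const (x j)).smul_const (ee j)).const_add x
  have h3 : HasFDerivAt f (fderiv ℝ f x) (x + (x j - x j) • ee j) := by
    simpa using hf.hasFDerivAt
  have h4 := h3.comp_hasDerivAt (x j) h2
  have : (fun s => f (Function.update x j s)) = f ∘ fun s : ℝ => x + (s - x j) • ee j := by
    funext s; rw [Function.comp, update_eq]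
  rw [this]
  exact h4

section

variable {κ : Type} [Fintype κ] {dir : κ → E3} {θ θ' : κ → ℝ → ℝ} {F : κ → E3 → ℝ}

theorem vel_continuous (hθ : ∀ k, Continuous (θ k)) (hF : ∀ k, Continuous (F k)) :
    Continuous (fun p : ℝ × E3 => vel dir θ F p.1 p.2) := by
  unfold vel
  refine continuous_finsetSum _ fun k _ => ?_
  exact (((hθ k).comp continuous_fst).mul ((hF k).comp continuous_snd)).smul continuous_const

theorem differentiable_vel (hF : ∀ k, Differentiable ℝ (F k)) (t : ℝ) :
    Differentiable ℝ (fun x => vel dir θ F t x) := by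
  unfold vel
  exact Differentiable.fun_sum fun k _ => (((hF k).const_mul _).smul_const _)

theorem hasDerivAt_vel_update (hF : ∀ k, Differentiable ℝ (F k)) (t : ℝ) (x : E3) (j : Fin 3) :
    HasDerivAt (fun s => vel dir θ F t (Function.update x j s))
      (vel dir θ (fun k => pd j (F k)) t x) (x j) := by
  unfold vel
  refine HasDerivAt.fun_sum fun k _ => ?_
  exact ((hasDerivAt_update (hF k x) j).const_mul (θ k t)).smul_const (dir k)

/-- The force: `∂ₜu - ν Δu`. -/
noncomputable def forceOf (dir : κ → E3) (θ θ' : κ → ℝ → ℝ) (F : κ → E3 → ℝ) (ν t : ℝ)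
    (x : E3) : E3 := vel dir θ' F t x - ν • vel dir θ (fun k => lap (F k)) t x

theorem hasDerivAt_vel_update_apply (hF : ∀ k, Differentiable ℝ (F k)) (t : ℝ) (x : E3)
    (i j : Fin 3) :
    HasDerivAt (fun s => vel dir θ F t (Function.update x i s) j)
      (vel dir θ (fun k => pd i (F k)) t x j) (x i) :=
  (hasDerivAt_pi.1 (hasDerivAt_vel_update hF t x i)) j

theorem isClassicalSolution (ν : ℝ) (I : Set ℝ) (hθ : ∀ k t, HasDerivAt (θ k) (θ' k t) t)
    (hθc : ∀ k, Continuous (θ' k)) (hF : ∀ k, ContDiff ℝ 2 (F k)) (hp : ∀ k, Per3 (F k))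
    (hi : ∀ k x (s : ℝ), F k (x + s • dir k) = F k x)
    (hd : ∀ k l t, k ≠ l → θ k t * θ l t = 0) (h0 : ∀ k, θ k 0 = 0) :
    IsClassicalSolution ν (forceOf dir θ θ' F ν) I (vel dir θ F) (fun _ _ => 0) := by
  have hθ0 : ∀ k, Continuous (θ k) := fun k =>
    continuous_iff_continuousAt.2 fun t => (hθ k t).continuousAt
  have hF0 : ∀ k, Continuous (F k) := fun k => (hF k).continuous
  have hF1 : ∀ k, Differentiable ℝ (F k) := fun k => (hF k).differentiable two_ne_zero
  have hF2 : ∀ j k, ContDiff ℝ 1 (pd j (F k)) := fun j k =>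
    pd_contDiff (m := 1) (n := 2) (hF k) (by norm_num) j
  have hF3 : ∀ i j k, Continuous (pd i (pd j (F k))) := fun i j k =>
    (pd_contDiff (m := 0) (n := 1) (hF2 j k) (by norm_num) i).continuous
  refine ⟨fun t _ x n => vel_per hp t x n, fun t _ x n => rfl, fun x => vel_zero h0 x,
    fun t _ => by simp, (vel_continuous hθ0 hF0).continuousOn, continuousOn_const,
    vel dir θ' F, fun i => vel dir θ (fun k => pd i (F k)),
    fun l i => vel dir θ (fun k => pd l (pd i (F k))), fun _ _ _ => 0, ?_, ?_, ?_, ?_, ?_, ?_,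
    ?_, ?_, ?_, ?_⟩
  · exact (vel_continuous hθc hF0).continuousOn
  · exact fun j => (vel_continuous hθ0 fun k => (hF2 j k).continuous).continuousOn
  · exact fun l i => (vel_continuous hθ0 fun k => hF3 l i k).continuousOn
  · exact fun j => continuousOn_const
  · exact fun t _ x j => (hasDerivAt_vel_apply hθ t x j).hasDerivWithinAt
  · exact fun t _ x i j => hasDerivAt_vel_update_apply hF1 t x i j
  · exact fun t _ x l i j =>
      hasDerivAt_vel_update_apply (fun k => (hF2 i k).differentiable one_ne_zero) t x l j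
  · exact fun t _ x j => hasDerivAt_const _ _
  · intro t _ x i
    have h1 := conv_vel hF1 hi hd t x i
    have h2 : ∀ j, pd j (fun x => vel dir θ F t x i) x =
        vel dir θ (fun k => pd j (F k)) t x i := by
      intro j
      rw [pd_vel hF1, vel_apply]
      exact Finset.sum_congr rfl fun k _ => by ring
    have h3 : ∑ j, vel dir θ F t x j * vel dir θ (fun k => pd j (F k)) t x i = 0 := by
      rw [← h1]
      exact Finset.sum_congr rfl fun j _ => by rw [h2]
    have h4 : ∑ j, vel dir θ (fun k => pd j (pd j (F k))) t x i =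
        vel dir θ (fun k => lap (F k)) t x i := by
      simp only [vel_apply, lap]
      rw [Finset.sum_comm]
      refine Finset.sum_congr rfl fun k _ => ?_
      rw [Finset.mul_sum, Finset.sum_mul]
    simp only [h3, h4, forceOf, Pi.sub_apply, Pi.smul_apply, smul_eq_mul]
    ring
  · intro t _ x
    have h1 := div_vel hF1 hi t x (θ := θ)
    rw [← h1]
    refine Finset.sum_congr rfl fun j _ => ?_
    rw [pd_vel hF1]
    simp only [vel_apply]
    exact Finset.sum_congr rfl fun k _ => by ring

theorem contDiffOn_vel (hθs : ∀ k, ContDiff ℝ ∞ (θ k)) (hF : ∀ k, ContDiff ℝ ∞ (F k))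
    (s : Set (ℝ × E3)) : ContDiffOn ℝ ∞ (fun y : ℝ × E3 => vel dir θ F y.1 y.2) s :=
  (vel_contDiff (n := ⊤) hθs hF).contDiffOn

end

/-- The slot velocity solves the equations on `[0,∞)`. -/
theorem slot_isClassicalSolution {N : ℕ} {dir : Fin N → E3} {F : Fin N → E3 → ℝ} (ν : ℝ)
    (I : Set ℝ) (hF : ∀ k, ContDiff ℝ ∞ (F k)) (hp : ∀ k, Per3 (F k))
    (hi : ∀ k x (s : ℝ), F k (x + s • dir k) = F k x) :
    IsClassicalSolution ν (forceOf dir (th N) (fun k => deriv (th N k)) F ν) I
      (vel dir (th N) F) (fun _ _ => 0) := by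
  refine isClassicalSolution ν I (fun k t => ?_) (fun k => ?_) (fun k => ?_) hp hi th_disj ?_
  · exact ((th_contDiff k (n := 1)).differentiable one_ne_zero t).hasDerivAt
  · exact (th_contDiff k (n := 1)).continuous_deriv le_rfl
  · exact contDiff_infty.1 (hF k) 2
  · exact fun k => th_zero k (by simp)

theorem slot_contDiffOn {N : ℕ} {dir : Fin N → E3} {F : Fin N → E3 → ℝ}
    (hF : ∀ k, ContDiff ℝ ∞ (F k)) (s : Set (ℝ × E3)) :
    ContDiffOn ℝ ∞ (fun y : ℝ × E3 => vel dir (th N) F y.1 y.2) s :=
  contDiffOn_vel (fun k => th_contDiff k (n := ⊤)) hF s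

/-! ### agreement with the definitions of the statement -/

theorem rho_eq_rho : rho = Vale.Agent.P113.rho := rfl

theorem kap_eq_kappa : kap = kappa := rfl

theorem per_eq_periodize : per = periodize := rfl

/-- The bump `s ↦ ρ(2 N s - (2 j + 1))` as data. -/
def slotBump (N j : ℕ) : Bump := ⟨Sum.inl 0, 0, (true, 2 * N, 0), (true, 2 * j + 1, 0)⟩

theorem slotBump_fn (N j : ℕ) : (slotBump N j).fn = gs N j := by
  funext s
  simp [slotBump, Bump.fn, gs, ratVal, rho_eq_rho]

theorem slotBump_valid {N : ℕ} (hN : 0 < N) (j : ℕ) : (slotBump N j).Valid := by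
  refine ⟨?_, ?_⟩
  · simp [slotBump, ratVal]; omega
  · intro l hl; simp [slotBump] at hl

theorem th_eq (N : ℕ) (j : Fin N) (t : ℝ) : th N j t = (2 * N / kappa) *
    (if (j : ℕ) = 0 then (slotBump N j).fn t else periodize (slotBump N j).fn t) := by
  unfold th
  split_ifs with h
  · rw [slotBump_fn, h]; rfl
  · rw [slotBump_fn]; rfl

end Vale.Agent.P113.H854
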