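import Vale.Agent.P113.H854.Slot

/-!
The trajectory of the slot velocity.
-/

namespace Vale.Agent.P113.H854

open Set Filter Topology MeasureTheory

/-- `ℤ³`-periodicity of a scalar function on `ℝ³`. -/
def Per3 (f : E3 → ℝ) : Prop := ∀ (x : E3) (m : Fin 3 → ℤ), f (fun i => x i + m i) = f x

/-- the active slot of the `n`-th window -/
def slot (N : ℕ) (hN : 0 < N) (n : ℕ) : Fin N := ⟨n % N, Nat.mod_lt _ hN⟩

theorem sched {N : ℕ} (hN : 0 < N) {dir : Fin N → E3} {F : Fin N → E3 → ℝ}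
    (hF : ∀ k x (s : ℝ), F k (x + s • dir k) = F k x) :
    Sched dir (th N) F (1 / N) (slot N hN) := by
  refine ⟨by positivity, fun k => (th_contDiff k (n := 0)).continuous, hF, ?_⟩
  intro n k hk s h1 h2
  rw [mul_one_div] at h1 h2
  refine th_off n k (Or.inl fun h => hk ?_) s h1 h2
  exact Fin.ext h

/-- positions at the times `n / N`. -/
noncomputable def P (N : ℕ) (hN : 0 < N) (dir : Fin N → E3) (F : Fin N → E3 → ℝ) (a : E3)
    (n : ℕ) : E3 := pos dir (th N) F (1 / N) (slot N hN) a n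

/-- the trajectory. -/
noncomputable def X (N : ℕ) (hN : 0 < N) (dir : Fin N → E3) (F : Fin N → E3 → ℝ) (a : E3)
    (t : ℝ) : E3 := path dir (th N) F (1 / N) (slot N hN) a t

section

variable {N : ℕ} {hN : 0 < N} {dir : Fin N → E3} {F : Fin N → E3 → ℝ} {a : E3}

theorem P_zero : P N hN dir F a 0 = a := rfl

theorem P_succ_of_ne (n : ℕ) (hn : n % N ≠ 0 ∨ n = 0) :
    P N hN dir F a (n + 1) = P N hN dir F a n +
      F (slot N hN n) (P N hN dir F a n) • dir (slot N hN n) := by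
  unfold P
  rw [pos, shift, mul_one_div, mul_one_div, th_integral n (slot N hN n) rfl, one_mul]
  exact hn

theorem P_succ_idle (n : ℕ) (hn : n % N = 0) (h0 : 0 < n) :
    P N hN dir F a (n + 1) = P N hN dir F a n := by
  unfold P
  have : ∫ s in (n * (1 / N : ℝ))..((n + 1 : ℕ) * (1 / N : ℝ)), th N (slot N hN n) s = 0 := by
    rw [mul_one_div, mul_one_div]
    have hle : (n : ℝ) / N ≤ ((n + 1 : ℕ) : ℝ) / N := by
      gcongr; omega
    rw [intervalIntegral.integral_congr (g := fun _ => (0 : ℝ)), intervalIntegral.integral_zero]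
    intro s hs
    rw [uIcc_of_le hle] at hs
    exact th_off n (slot N hN n) (Or.inr ⟨hn, h0⟩) s hs.1 hs.2
  rw [pos, shift, this]
  simp

theorem X_nat (n : ℕ) : X N hN dir F a (n / N) = P N hN dir F a n := by
  have := path_nat (dir := dir) (θ := th N) (F := F) (w := slot N hN) (x0 := a)
    (h := (1 / N : ℝ)) (by positivity) n
  rw [mul_one_div] at this
  exact this

theorem X_zero : X N hN dir F a 0 = a :=
  path_zero (dir := dir) (θ := th N) (F := F) (w := slot N hN) (x0 := a)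
    (h := (1 / N : ℝ)) (by positivity)

theorem X_segment (hF : ∀ k x (s : ℝ), F k (x + s • dir k) = F k x) (n : ℕ) {t : ℝ}
    (h1 : (n : ℝ) / N ≤ t) (h2 : t ≤ (n + 1 : ℕ) / N) :
    X N hN dir F a t ∈ segment ℝ (P N hN dir F a n) (P N hN dir F a (n + 1)) :=
  path_segment (sched hN hF) (by rw [mul_one_div]; exact h1) (by rw [mul_one_div]; exact h2)
    (fun s _ _ => th_nonneg _ _)

theorem X_hasDerivWithinAt (hF : ∀ k x (s : ℝ), F k (x + s • dir k) = F k x) {t : ℝ}
    (ht : 0 ≤ t) :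
    HasDerivWithinAt (X N hN dir F a) (vel dir (th N) F t (X N hN dir F a t)) (Ici 0) t :=
  hasDerivWithinAt_path (sched hN hF) ht

theorem X_hasDerivAt (hF : ∀ k x (s : ℝ), F k (x + s • dir k) = F k x) {t : ℝ}
    (ht : 0 < t) :
    HasDerivAt (X N hN dir F a) (vel dir (th N) F t (X N hN dir F a t)) t :=
  hasDerivAt_path (sched hN hF) ht

end

/-! ### Lipschitz bounds -/

theorem exists_bound_per3 {f : E3 → ℝ} (hf : Continuous f) (hp : Per3 f) :
    ∃ C, ∀ x, |f x| ≤ C := by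
  have hc : IsCompact (Icc (0 : E3) 1) := isCompact_Icc
  obtain ⟨C, hC⟩ := hc.exists_bound_of_continuousOn hf.continuousOn
  refine ⟨C, fun x => ?_⟩
  have := hp x (fun i => -⌊x i⌋)
  rw [← this]
  refine hC _ ⟨fun i => ?_, fun i => ?_⟩
  · have := Int.fract_nonneg (x i)
    simp only [Pi.zero_apply, Int.cast_neg]
    rw [← sub_eq_add_neg]; exact this
  · have := (Int.fract_lt_one (x i)).le
    simp only [Pi.one_apply, Int.cast_neg]
    rw [← sub_eq_add_neg]; exact this

theorem fderiv_per3 {f : E3 → ℝ} (hp : Per3 f) (x : E3) (m : Fin 3 → ℤ) :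
    fderiv ℝ f (fun i => x i + m i) = fderiv ℝ f x := by
  have h1 : (fun y : E3 => f (y + fun i => (m i : ℝ))) = f := by
    funext y; exact hp y m
  have h2 := fderiv_comp_add_right (𝕜 := ℝ) (f := f) (x := x) (fun i => (m i : ℝ))
  rw [h1] at h2
  exact h2.symm

theorem lipschitz_per3 {f : E3 → ℝ} (hf : ContDiff ℝ 1 f) (hp : Per3 f) :
    ∃ K : NNReal, LipschitzWith K f := by
  have hc : IsCompact (Icc (0 : E3) 1) := isCompact_Icc
  have hd : Continuous (fderiv ℝ f) := hf.continuous_fderiv one_ne_zero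
  obtain ⟨C, hC⟩ := hc.exists_bound_of_continuousOn hd.continuousOn
  refine ⟨C.toNNReal, lipschitzWith_of_nnnorm_fderiv_le (hf.differentiable one_ne_zero) ?_⟩
  intro x
  rw [← norm_toNNReal]
  apply Real.toNNReal_le_toNNReal
  rw [← fderiv_per3 hp x (fun i => -⌊x i⌋)]
  refine hC _ ⟨fun i => ?_, fun i => ?_⟩
  · have := Int.fract_nonneg (x i)
    simp only [Pi.zero_apply, Int.cast_neg]
    rw [← sub_eq_add_neg]; exact this
  · have := (Int.fract_lt_one (x i)).le
    simp only [Pi.one_apply, Int.cast_neg]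
    rw [← sub_eq_add_neg]; exact this

theorem gs_bounded {N : ℕ} (hN : 0 < N) (j : ℕ) : ∃ C, ∀ s, |gs N j s| ≤ C := by
  obtain ⟨C, hC⟩ := (gs_hasCompactSupport hN j).exists_bound_of_continuous (gs_continuous N j)
  exact ⟨C, hC⟩

theorem th_bounded {N : ℕ} (j : Fin N) : ∃ C : ℝ, 0 ≤ C ∧ ∀ t, |th N j t| ≤ C := by
  have hN : 0 < N := lt_of_le_of_lt (Nat.zero_le _) j.2
  have hk := kap_pos
  have hc0 : (0 : ℝ) ≤ 2 * N / kap := by positivity
  obtain ⟨C, hC⟩ := gs_bounded hN j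
  obtain ⟨C0, hC0⟩ := gs_bounded hN 0
  have hC0' : 0 ≤ C0 := (abs_nonneg _).trans (hC0 0)
  refine ⟨(2 * N / kap) * (|C| + |C0|), by positivity, fun t => ?_⟩
  unfold th
  split_ifs
  · unfold win
    rw [abs_mul, abs_of_nonneg hc0]
    gcongr
    exact (hC0 t).trans (by linarith [abs_nonneg C, le_abs_self C0])
  · rw [abs_mul, abs_of_nonneg hc0, per_eq_fract (fun y hy => gs_zero_of hN j.2 hy)]
    gcongr
    exact (hC _).trans (by linarith [abs_nonneg C0, le_abs_self C])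

theorem vel_lipschitz {N : ℕ} {dir : Fin N → E3} {F : Fin N → E3 → ℝ}
    (hF : ∀ k, ContDiff ℝ 1 (F k)) (hp : ∀ k, Per3 (F k)) :
    ∃ K : NNReal, ∀ t, LipschitzWith K (vel dir (th N) F t) := by
  choose K hK using fun k => lipschitz_per3 (hF k) (hp k)
  choose C hC0 hC using fun k : Fin N => th_bounded k
  refine ⟨∑ k, (C k).toNNReal * K k * ‖dir k‖₊, fun t => ?_⟩
  refine LipschitzWith.of_dist_le_mul fun x y => ?_
  unfold vel
  rw [dist_eq_norm, ← Finset.sum_sub_distrib]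
  refine (norm_sum_le _ _).trans ?_
  push_cast
  rw [Finset.sum_mul]
  refine Finset.sum_le_sum fun k _ => ?_
  rw [← sub_smul, norm_smul, ← mul_sub, norm_mul, Real.coe_toNNReal _ (hC0 k)]
  have h1 : ‖F k x - F k y‖ ≤ K k * dist x y := by
    have := (hK k).dist_le_mul x y
    rwa [dist_eq_norm] at this
  have h2 : ‖th N k t‖ ≤ C k := hC k t
  have h3 : 0 ≤ C k := hC0 k
  calc ‖th N k t‖ * ‖F k x - F k y‖ * ‖dir k‖ ≤ C k * (K k * dist x y) * ‖dir k‖ := by
        gcongr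
    _ = C k * K k * ‖dir k‖ * dist x y := by ring

/-- Any trajectory is `X`. -/
theorem traj_eq_X {N : ℕ} (hN : 0 < N) {dir : Fin N → E3} {F : Fin N → E3 → ℝ}
    (hF : ∀ k, ContDiff ℝ 1 (F k)) (hp : ∀ k, Per3 (F k))
    (hi : ∀ k x (s : ℝ), F k (x + s • dir k) = F k x) {Y : ℝ → E3}
    (hY : ∀ t, 0 ≤ t → HasDerivWithinAt Y (vel dir (th N) F t (Y t)) (Ici 0) t) :
    ∀ t, 0 ≤ t → Y t = X N hN dir F (Y 0) t := by
  obtain ⟨K, hK⟩ := vel_lipschitz (dir := dir) hF hp
  exact traj_unique hK X_zero.symm hY (fun t ht => X_hasDerivWithinAt hi ht)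

end Vale.Agent.P113.H854
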