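import Mathlib

/-!
Flows of time dependent shears: explicit trajectories.

`vel dir θ F t x = ∑ k, (θ k t * F k x) • dir k`, with `F k` invariant under translations along
`dir k`, and at each time only one window active (`Sched`).  The trajectory from `x0` is
`path dir θ F h w x0`, with the positions `pos dir θ F h w x0 n` at the times `n * h`.
-/

namespace Vale.Agent.P113.H854

open Set Filter Topology MeasureTheory

/-- space -/
abbrev E3 : Type := Fin 3 → ℝ

/-- velocity built from shear terms `θ k t * F k x` in direction `dir k`. -/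
noncomputable def vel {κ : Type} [Fintype κ] (dir : κ → E3) (θ : κ → ℝ → ℝ)
    (F : κ → E3 → ℝ) (t : ℝ) (x : E3) : E3 :=
  ∑ k, (θ k t * F k x) • dir k

section disc

variable {κ : Type} (dir : κ → E3) (θ : κ → ℝ → ℝ) (F : κ → E3 → ℝ)
  (h : ℝ) (w : ℕ → κ) (x0 : E3)

/-- the displacement produced by the window `n` on the point `x`. -/
noncomputable def shift (n : ℕ) (x : E3) : E3 :=
  x + ((∫ s in (n * h)..((n + 1 : ℕ) * h), θ (w n) s) * F (w n) x) • dir (w n)

/-- the positions at the times `n * h`. -/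
noncomputable def pos : ℕ → E3
  | 0 => x0
  | n + 1 => shift dir θ F h w n (pos n)

/-- the piece of the path in the `n`-th window. -/
noncomputable def piece (n : ℕ) (t : ℝ) : E3 :=
  pos dir θ F h w x0 n + ((∫ s in (n * h)..t, θ (w n) s) * F (w n) (pos dir θ F h w x0 n)) •
      dir (w n)

/-- the path. -/
noncomputable def path (t : ℝ) : E3 := piece dir θ F h w x0 ⌊t / h⌋₊ t

variable {dir θ F h w x0}

theorem piece_left (n : ℕ) : piece dir θ F h w x0 n (n * h) = pos dir θ F h w x0 n := by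
  simp [piece]

theorem piece_right (n : ℕ) :
    piece dir θ F h w x0 n ((n + 1 : ℕ) * h) = pos dir θ F h w x0 (n + 1) := rfl

theorem path_of_mem (hh : 0 < h) {n : ℕ} {t : ℝ} (h1 : n * h ≤ t) (h2 : t < (n + 1 : ℕ) * h) :
    path dir θ F h w x0 t = piece dir θ F h w x0 n t := by
  have : ⌊t / h⌋₊ = n := by
    rw [Nat.floor_eq_iff (div_nonneg (le_trans (by positivity) h1) hh.le)]
    constructor
    · rw [le_div_iff₀ hh]; exact h1
    · rw [div_lt_iff₀ hh]; push_cast at h2; exact h2
  rw [path, this]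

/-- The path on the closed window. -/
theorem path_of_mem_Icc (hh : 0 < h) {n : ℕ} {t : ℝ} (h1 : n * h ≤ t)
    (h2 : t ≤ (n + 1 : ℕ) * h) :
    path dir θ F h w x0 t = piece dir θ F h w x0 n t := by
  rcases h2.lt_or_eq with h2 | h2
  · exact path_of_mem hh h1 h2
  · subst h2
    rw [piece_right, path_of_mem (n := n + 1) hh le_rfl
      (by push_cast; nlinarith), piece_left]

theorem path_nat (hh : 0 < h) (n : ℕ) : path dir θ F h w x0 (n * h) = pos dir θ F h w x0 n := by
  rw [path_of_mem hh le_rfl (by push_cast; nlinarith), piece_left]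

theorem path_zero (hh : 0 < h) : path dir θ F h w x0 0 = x0 := by
  have := path_nat (dir := dir) (θ := θ) (F := F) (w := w) (x0 := x0) hh 0
  simpa [pos] using this

/-- Standing hypotheses: only the window `w n` is active during `[n h, (n+1) h]`. -/
structure Sched (dir : κ → E3) (θ : κ → ℝ → ℝ) (F : κ → E3 → ℝ) (h : ℝ) (w : ℕ → κ) :
    Prop where
  hpos : 0 < h
  cont : ∀ k, Continuous (θ k)
  indep : ∀ k x (s : ℝ), F k (x + s • dir k) = F k x
  off : ∀ n : ℕ, ∀ k, k ≠ w n → ∀ s, n * h ≤ s → s ≤ (n + 1 : ℕ) * h → θ k s = 0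

theorem vel_of_mem [Fintype κ] (H : Sched dir θ F h w) {n : ℕ} {t : ℝ} (h1 : n * h ≤ t)
    (h2 : t ≤ (n + 1 : ℕ) * h) (x : E3) :
    vel dir θ F t x = (θ (w n) t * F (w n) x) • dir (w n) := by
  unfold vel
  rw [Finset.sum_eq_single (w n)]
  · intro k _ hk
    rw [H.off n k hk t h1 h2]; simp
  · simp

/-- Each piece solves the equation with two-sided derivative, for the frozen velocity. -/
theorem hasDerivAt_piece (H : Sched dir θ F h w) (n : ℕ) (t : ℝ) :
    HasDerivAt (piece dir θ F h w x0 n)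
      ((θ (w n) t * F (w n) (piece dir θ F h w x0 n t)) • dir (w n)) t := by
  have hF : F (w n) (piece dir θ F h w x0 n t) = F (w n) (pos dir θ F h w x0 n) :=
    H.indep _ _ _
  rw [hF]
  have h1 : HasDerivAt (fun t => ∫ s in (n * h)..t, θ (w n) s) (θ (w n) t) t :=
    intervalIntegral.integral_hasDerivAt_right ((H.cont (w n)).intervalIntegrable _ _)
      ((H.cont (w n)).stronglyMeasurableAtFilter _ _) (H.cont (w n)).continuousAt
  exact ((h1.mul_const (F (w n) (pos dir θ F h w x0 n))).smul_const (dir (w n))).const_add _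

theorem hasDerivWithinAt_path_right [Fintype κ] (H : Sched dir θ F h w) {t : ℝ} (ht : 0 ≤ t) :
    HasDerivWithinAt (path dir θ F h w x0) (vel dir θ F t (path dir θ F h w x0 t)) (Ici t) t := by
  set n : ℕ := ⌊t / h⌋₊ with hn
  have hh := H.hpos
  have h1 : n * h ≤ t := by
    have := Nat.floor_le (div_nonneg ht hh.le)
    rwa [le_div_iff₀ hh] at this
  have h2 : t < (n + 1 : ℕ) * h := by
    have := Nat.lt_floor_add_one (t / h)
    rw [div_lt_iff₀ hh] at this
    push_cast; exact this
  rw [vel_of_mem H h1 h2.le, path_of_mem hh h1 h2]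
  refine ((hasDerivAt_piece H n t).hasDerivWithinAt (s := Ici t)).congr_of_eventuallyEq ?_
    (path_of_mem hh h1 h2)
  filter_upwards [Ico_mem_nhdsGE h2] with s hs
  exact path_of_mem hh (h1.trans hs.1) hs.2

theorem hasDerivWithinAt_path_left [Fintype κ] (H : Sched dir θ F h w) {t : ℝ} (ht : 0 < t) :
    HasDerivWithinAt (path dir θ F h w x0) (vel dir θ F t (path dir θ F h w x0 t)) (Iic t) t := by
  have hh := H.hpos
  -- the window containing `t` in `(n h, (n+1) h]`
  obtain ⟨n, h1, h2⟩ : ∃ n : ℕ, n * h < t ∧ t ≤ (n + 1 : ℕ) * h := by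
    have hp : 0 < ⌈t / h⌉₊ := Nat.ceil_pos.2 (div_pos ht hh)
    refine ⟨⌈t / h⌉₊ - 1, ?_, ?_⟩
    · have : ((⌈t / h⌉₊ - 1 : ℕ) : ℝ) < t / h := by
        rw [← Nat.lt_ceil]; omega
      rwa [lt_div_iff₀ hh] at this
    · have := Nat.le_ceil (t / h)
      rw [div_le_iff₀ hh] at this
      rw [Nat.sub_add_cancel hp]; exact this
  rw [vel_of_mem H h1.le h2, path_of_mem_Icc hh h1.le h2]
  refine ((hasDerivAt_piece H n t).hasDerivWithinAt (s := Iic t)).congr_of_eventuallyEq ?_
    (path_of_mem_Icc hh h1.le h2)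
  filter_upwards [Ioc_mem_nhdsLE h1] with s hs
  exact path_of_mem_Icc hh hs.1.le (hs.2.trans h2)

/-- The path solves the trajectory equation for `t > 0`. -/
theorem hasDerivAt_path [Fintype κ] (H : Sched dir θ F h w) {t : ℝ} (ht : 0 < t) :
    HasDerivAt (path dir θ F h w x0) (vel dir θ F t (path dir θ F h w x0 t)) t := by
  have := (hasDerivWithinAt_path_left (x0 := x0) H ht).union
    (hasDerivWithinAt_path_right (x0 := x0) H ht.le)
  rw [Iic_union_Ici] at this
  exact this.hasDerivAt univ_mem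

/-- The path solves the trajectory equation on `[0,∞)`. -/
theorem hasDerivWithinAt_path [Fintype κ] (H : Sched dir θ F h w) {t : ℝ} (ht : 0 ≤ t) :
    HasDerivWithinAt (path dir θ F h w x0) (vel dir θ F t (path dir θ F h w x0 t)) (Ici 0) t := by
  rcases ht.lt_or_eq with ht | ht
  · exact (hasDerivAt_path H ht).hasDerivWithinAt
  · subst ht; exact hasDerivWithinAt_path_right H le_rfl

/-- During the `n`-th window the path moves on the segment between `pos n` and `pos (n+1)`. -/
theorem path_segment (H : Sched dir θ F h w) {n : ℕ} {t : ℝ} (h1 : n * h ≤ t)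
    (h2 : t ≤ (n + 1 : ℕ) * h) (hθ : ∀ s, n * h ≤ s → s ≤ (n + 1 : ℕ) * h → 0 ≤ θ (w n) s) :
    path dir θ F h w x0 t ∈ segment ℝ (pos dir θ F h w x0 n) (pos dir θ F h w x0 (n + 1)) := by
  rw [path_of_mem_Icc H.hpos h1 h2]
  set c : ℝ := ∫ s in (n * h)..t, θ (w n) s with hc
  set C : ℝ := ∫ s in (n * h)..((n + 1 : ℕ) * h), θ (w n) s with hC
  have hii : ∀ a b, IntervalIntegrable (θ (w n)) volume a b :=
    fun a b => (H.cont (w n)).intervalIntegrable a b
  have hc0 : 0 ≤ c := intervalIntegral.integral_nonneg h1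
    (fun s hs => hθ s hs.1 (hs.2.trans h2))
  have hCc : 0 ≤ C - c := by
    have : C - c = ∫ s in t..((n + 1 : ℕ) * h), θ (w n) s := by
      rw [hC, hc, intervalIntegral.integral_interval_sub_left (hii _ _) (hii _ _)]
    rw [this]
    exact intervalIntegral.integral_nonneg h2 (fun s hs => hθ s (h1.trans hs.1) hs.2)
  have hCn : 0 ≤ C := by linarith
  have e1 : pos dir θ F h w x0 (n + 1) = pos dir θ F h w x0 n +
      (C * F (w n) (pos dir θ F h w x0 n)) • dir (w n) := rfl
  have e2 : piece dir θ F h w x0 n t = pos dir θ F h w x0 n +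
      (c * F (w n) (pos dir θ F h w x0 n)) • dir (w n) := rfl
  rw [segment_eq_image']
  rcases hCn.lt_or_eq with hpos | hzero
  · refine ⟨c / C, ⟨by positivity, by rw [div_le_one hpos]; linarith⟩, ?_⟩
    simp only
    rw [e1, e2, add_sub_cancel_left, smul_smul]
    congr 2
    field_simp
  · refine ⟨0, ⟨le_rfl, zero_le_one⟩, ?_⟩
    have : c = 0 := by linarith
    simp only
    rw [e2, this]; simp

end disc

/-- Uniqueness of trajectories. -/
theorem traj_unique {v : ℝ → E3 → E3} {K : NNReal} (hv : ∀ t, LipschitzWith K (v t))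
    {X Y : ℝ → E3} (h0 : X 0 = Y 0)
    (hX : ∀ t, 0 ≤ t → HasDerivWithinAt X (v t (X t)) (Ici 0) t)
    (hY : ∀ t, 0 ≤ t → HasDerivWithinAt Y (v t (Y t)) (Ici 0) t) :
    ∀ t, 0 ≤ t → X t = Y t := by
  intro t ht
  have hcX : ContinuousOn X (Icc 0 t) := fun s hs =>
    ((hX s hs.1).continuousWithinAt).mono Icc_subset_Ici_self
  have hcY : ContinuousOn Y (Icc 0 t) := fun s hs =>
    ((hY s hs.1).continuousWithinAt).mono Icc_subset_Ici_self
  exact ODE_solution_unique hv hcX
    (fun s hs => (hX s hs.1).mono (Ici_subset_Ici.2 hs.1)) hcY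
    (fun s hs => (hY s hs.1).mono (Ici_subset_Ici.2 hs.1)) h0 ⟨ht, le_rfl⟩

end Vale.Agent.P113.H854
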