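import Vale.Agent.P113.H854.Traj

/-!
The shear velocity solves Navier-Stokes with zero pressure and the force
`∂ₜ u - ν Δ u`.
-/

namespace Vale.Agent.P113.H854

open Set Filter Topology

/-- unit vectors -/
noncomputable def ee (i : Fin 3) : E3 := Pi.single i 1

theorem sum_smul_ee (v : E3) : ∑ i, v i • ee i = v := by
  funext j
  simp [ee, Finset.sum_apply, Pi.single_apply]

/-- partial derivative -/
noncomputable def pd (i : Fin 3) (f : E3 → ℝ) (x : E3) : ℝ := fderiv ℝ f x (ee i)

/-- Laplacian -/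
noncomputable def lap (f : E3 → ℝ) (x : E3) : ℝ := ∑ i, pd i (pd i f) x

theorem fderiv_eq_sum (f : E3 → ℝ) (x v : E3) : fderiv ℝ f x v = ∑ i, v i * pd i f x := by
  conv_lhs => rw [← sum_smul_ee v]
  rw [map_sum]
  simp [pd]

theorem fderiv_dir_zero {f : E3 → ℝ} {v : E3} (hf : Differentiable ℝ f)
    (hi : ∀ x (s : ℝ), f (x + s • v) = f x) (x : E3) : fderiv ℝ f x v = 0 := by
  have h1 : HasDerivAt (fun s : ℝ => f (x + s • v)) (fderiv ℝ f x v) 0 := by
    have h2 : HasDerivAt (fun s : ℝ => x + s • v) v 0 := by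
      simpa using ((hasDerivAt_id (0 : ℝ)).smul_const v).const_add x
    have h3 : HasFDerivAt f (fderiv ℝ f x) (x + (0 : ℝ) • v) := by
      simpa using (hf x).hasFDerivAt
    exact h3.comp_hasDerivAt (0 : ℝ) h2
  have h4 : (fun s : ℝ => f (x + s • v)) = fun _ => f x := by
    funext s; exact hi x s
  rw [h4] at h1
  exact h1.unique (hasDerivAt_const _ _)

section

variable {κ : Type} [Fintype κ] {dir : κ → E3} {θ : κ → ℝ → ℝ} {F : κ → E3 → ℝ}

theorem vel_apply (t : ℝ) (x : E3) (i : Fin 3) :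
    vel dir θ F t x i = ∑ k, θ k t * F k x * dir k i := by
  simp [vel, Finset.sum_apply]

theorem vel_contDiff {n : ℕ∞} (hθ : ∀ k, ContDiff ℝ n (θ k)) (hF : ∀ k, ContDiff ℝ n (F k)) :
    ContDiff ℝ n (fun p : ℝ × E3 => vel dir θ F p.1 p.2) := by
  unfold vel
  refine ContDiff.sum fun k _ => ?_
  exact (((hθ k).comp contDiff_fst).mul ((hF k).comp contDiff_snd)).smul contDiff_const

theorem vel_per (hp : ∀ k, Per3 (F k)) (t : ℝ) (x : E3) (m : Fin 3 → ℤ) :
    vel dir θ F t (fun i => x i + m i) = vel dir θ F t x := by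
  unfold vel
  exact Finset.sum_congr rfl fun k _ => by rw [hp k x m]

theorem vel_zero {t : ℝ} (h0 : ∀ k, θ k t = 0) (x : E3) : vel dir θ F t x = 0 := by
  unfold vel
  exact Finset.sum_eq_zero fun k _ => by rw [h0 k]; simp

theorem hasFDerivAt_vel_apply (hF : ∀ k, Differentiable ℝ (F k)) (t : ℝ) (x : E3) (i : Fin 3) :
    HasFDerivAt (fun x => vel dir θ F t x i)
      (∑ k, (θ k t * dir k i) • fderiv ℝ (F k) x) x := by
  have : (fun x => vel dir θ F t x i) = fun x => ∑ k, (θ k t * dir k i) * F k x := by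
    funext x
    rw [vel_apply]
    exact Finset.sum_congr rfl fun k _ => by ring
  rw [this]
  refine HasFDerivAt.fun_sum fun k _ => ?_
  exact ((hF k) x).hasFDerivAt.const_mul (θ k t * dir k i)

theorem pd_vel (hF : ∀ k, Differentiable ℝ (F k)) (t : ℝ) (x : E3) (i j : Fin 3) :
    pd j (fun x => vel dir θ F t x i) x = ∑ k, θ k t * dir k i * pd j (F k) x := by
  unfold pd
  rw [(hasFDerivAt_vel_apply hF t x i).fderiv]
  simp

theorem div_vel (hF : ∀ k, Differentiable ℝ (F k))
    (hi : ∀ k x (s : ℝ), F k (x + s • dir k) = F k x) (t : ℝ) (x : E3) :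
    ∑ i, pd i (fun x => vel dir θ F t x i) x = 0 := by
  have : ∀ k, ∑ i, θ k t * dir k i * pd i (F k) x = 0 := by
    intro k
    have h1 := fderiv_dir_zero (hF k) (hi k) x
    rw [fderiv_eq_sum] at h1
    have : ∑ i, θ k t * dir k i * pd i (F k) x = θ k t * ∑ i, dir k i * pd i (F k) x := by
      rw [Finset.mul_sum]; exact Finset.sum_congr rfl fun i _ => by ring
    rw [this, h1, mul_zero]
  calc ∑ i, pd i (fun x => vel dir θ F t x i) x
      = ∑ i, ∑ k, θ k t * dir k i * pd i (F k) x :=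
        Finset.sum_congr rfl fun i _ => pd_vel hF t x i i
    _ = ∑ k, ∑ i, θ k t * dir k i * pd i (F k) x := Finset.sum_comm
    _ = 0 := Finset.sum_eq_zero fun k _ => this k

theorem conv_vel (hF : ∀ k, Differentiable ℝ (F k))
    (hi : ∀ k x (s : ℝ), F k (x + s • dir k) = F k x)
    (hd : ∀ k l t, k ≠ l → θ k t * θ l t = 0) (t : ℝ) (x : E3) (i : Fin 3) :
    ∑ j, vel dir θ F t x j * pd j (fun x => vel dir θ F t x i) x = 0 := by
  rw [← fderiv_eq_sum, (hasFDerivAt_vel_apply hF t x i).fderiv]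
  have : vel dir θ F t x = ∑ l, (θ l t * F l x) • dir l := rfl
  rw [this, map_sum]
  refine Finset.sum_eq_zero fun l _ => ?_
  rw [map_smul, ContinuousLinearMap.sum_apply, smul_eq_mul, Finset.mul_sum]
  refine Finset.sum_eq_zero fun k _ => ?_
  rw [ContinuousLinearMap.smul_apply, smul_eq_mul]
  by_cases hkl : k = l
  · subst hkl
    rw [fderiv_dir_zero (hF k) (hi k)]; ring
  · have := hd k l t hkl
    calc θ l t * F l x * (θ k t * dir k i * (fderiv ℝ (F k) x) (dir l))
        = (θ k t * θ l t) * (F l x * dir k i * (fderiv ℝ (F k) x) (dir l)) := by ring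
      _ = 0 := by rw [this, zero_mul]

theorem hasDerivAt_vel_apply {θ' : κ → ℝ → ℝ} (hθ : ∀ k t, HasDerivAt (θ k) (θ' k t) t)
    (t : ℝ) (x : E3) (i : Fin 3) :
    HasDerivAt (fun t => vel dir θ F t x i) (vel dir θ' F t x i) t := by
  have : (fun t => vel dir θ F t x i) = fun t => ∑ k, θ k t * F k x * dir k i := by
    funext t; rw [vel_apply]
  rw [this, vel_apply]
  refine HasDerivAt.fun_sum fun k _ => ?_
  exact ((hθ k t).mul_const _).mul_const _

theorem hasDerivAt_vel {θ' : κ → ℝ → ℝ} (hθ : ∀ k t, HasDerivAt (θ k) (θ' k t) t)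
    (t : ℝ) (x : E3) :
    HasDerivAt (fun t => vel dir θ F t x) (vel dir θ' F t x) t :=
  hasDerivAt_pi.2 fun i => hasDerivAt_vel_apply hθ t x i

theorem pd_contDiff {f : E3 → ℝ} {m n : ℕ∞} (hf : ContDiff ℝ n f) (h : (m : WithTop ℕ∞) + 1 ≤ n)
    (i : Fin 3) : ContDiff ℝ m (pd i f) := by
  unfold pd
  exact (hf.fderiv_right h).clm_apply contDiff_const

theorem pdpd_vel (hF : ∀ k, ContDiff ℝ 2 (F k)) (t : ℝ) (x : E3) (i j l : Fin 3) :
    pd l (pd j (fun x => vel dir θ F t x i)) x =
      ∑ k, θ k t * dir k i * pd l (pd j (F k)) x := by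
  have hF1 : ∀ k, Differentiable ℝ (F k) := fun k => (hF k).differentiable two_ne_zero
  have hF2 : ∀ k, Differentiable ℝ (pd j (F k)) := fun k =>
    (pd_contDiff (m := 1) (n := 2) (hF k) (by norm_num) j).differentiable one_ne_zero
  have e1 : pd j (fun x => vel dir θ F t x i) = fun x => vel dir θ (fun k => pd j (F k)) t x i := by
    funext x
    rw [pd_vel hF1, vel_apply]
    exact Finset.sum_congr rfl fun k _ => by ring
  rw [e1, pd_vel hF2]

theorem lap_vel (hF : ∀ k, ContDiff ℝ 2 (F k)) (t : ℝ) (x : E3) (i : Fin 3) :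
    lap (fun x => vel dir θ F t x i) x = vel dir θ (fun k => lap (F k)) t x i := by
  unfold lap
  rw [vel_apply]
  calc ∑ j, pd j (pd j (fun x => vel dir θ F t x i)) x
      = ∑ j, ∑ k, θ k t * dir k i * pd j (pd j (F k)) x :=
        Finset.sum_congr rfl fun j _ => pdpd_vel hF t x i j j
    _ = ∑ k, ∑ j, θ k t * dir k i * pd j (pd j (F k)) x := Finset.sum_comm
    _ = ∑ k, θ k t * (∑ j, pd j (pd j (F k)) x) * dir k i :=
        Finset.sum_congr rfl fun k _ => by
          rw [Finset.mul_sum, Finset.sum_mul]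
          exact Finset.sum_congr rfl fun j _ => by ring

end

/-! ### the slot functions have disjoint supports -/

theorem th_support {N : ℕ} (j : Fin N) {t : ℝ} (h : th N j t ≠ 0) :
    (j : ℝ) / N < Int.fract t ∧ Int.fract t < (j + 1 : ℕ) / N := by
  have hN : 0 < N := lt_of_le_of_lt (Nat.zero_le _) j.2
  have hN' : (0 : ℝ) < N := by exact_mod_cast hN
  have key : gs N j (Int.fract t) ≠ 0 := by
    unfold th at h
    split_ifs at h with h0
    · have h1 : gs N 0 t ≠ 0 := fun h2 => h (by unfold win; rw [h2, mul_zero])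
      have h3 : 0 < t ∧ t < 1 := by
        constructor
        · by_contra h4
          exact h1 (gs_zero_of hN hN (Or.inl (not_lt.1 h4)))
        · by_contra h4
          exact h1 (gs_zero_of hN hN (Or.inr (not_lt.1 h4)))
      rw [h0, Int.fract_eq_self.2 ⟨h3.1.le, h3.2⟩]
      exact h1
    · rw [per_eq_fract (fun y hy => gs_zero_of hN j.2 hy)] at h
      exact fun h2 => h (by rw [h2, mul_zero])
  constructor
  · by_contra h1
    exact key (gs_zero hN (Or.inl (not_lt.1 h1)))
  · by_contra h1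
    exact key (gs_zero hN (Or.inr (not_lt.1 h1)))

theorem th_disj {N : ℕ} (j k : Fin N) (t : ℝ) (hjk : j ≠ k) : th N j t * th N k t = 0 := by
  by_contra h
  have h1 := th_support j (left_ne_zero_of_mul h)
  have h2 := th_support k (right_ne_zero_of_mul h)
  have hN : 0 < N := lt_of_le_of_lt (Nat.zero_le _) j.2
  have hN' : (0 : ℝ) < N := by exact_mod_cast hN
  have h3 : (j : ℝ) / N < (k + 1 : ℕ) / N := h1.1.trans h2.2
  have h4 : (k : ℝ) / N < (j + 1 : ℕ) / N := h2.1.trans h1.2
  rw [div_lt_div_iff_of_pos_right hN'] at h3 h4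
  have h5 : (j : ℕ) < k + 1 := by exact_mod_cast h3
  have h6 : (k : ℕ) < j + 1 := by exact_mod_cast h4
  exact hjk (Fin.ext (by omega))

theorem th_zero {N : ℕ} (j : Fin N) {t : ℝ} (ht : Int.fract t = 0) : th N j t = 0 := by
  by_contra h
  have h1 := (th_support j h).1
  rw [ht] at h1
  have : (0 : ℝ) ≤ (j : ℝ) / N := by positivity
  linarith

end Vale.Agent.P113.H854
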