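import Vale.Agent.P113.H854.Flow
import Vale.Agent.P113.H854.Per

/-!
The concrete time windows: `N` slots of length `1/N` per period.
-/

namespace Vale.Agent.P113.H854

open Set Filter Topology MeasureTheory

/-- the bump `ρ` of the problem. -/
noncomputable def rho (s : ℝ) : ℝ := if |s| < 1 then Real.exp (-1 / (1 - s ^ 2)) else 0

/-- `κ = ∫ ρ`. -/
noncomputable def kap : ℝ := ∫ s, rho s

theorem rho_eq : rho = fun s => expNegInvGlue (1 - s ^ 2) := by
  funext s
  unfold rho expNegInvGlue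
  by_cases hs : |s| < 1
  · have h1 : s ^ 2 < 1 := (sq_lt_one_iff_abs_lt_one s).2 hs
    rw [if_pos hs, if_neg (by linarith)]
    congr 1
    rw [neg_div, one_div]
  · have h1 : 1 ≤ s ^ 2 := by
      have := not_lt.1 hs
      rw [← sq_abs]; nlinarith [abs_nonneg s]
    rw [if_neg hs, if_pos (by linarith)]

theorem rho_contDiff {n : ℕ∞} : ContDiff ℝ n rho := by
  rw [rho_eq]
  exact expNegInvGlue.contDiff.comp (contDiff_const.sub (contDiff_id.pow 2))

theorem rho_continuous : Continuous rho := (rho_contDiff (n := 0)).continuous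

theorem rho_nonneg (s : ℝ) : 0 ≤ rho s := by
  rw [rho_eq]; exact expNegInvGlue.nonneg _

theorem rho_pos {s : ℝ} (h : |s| < 1) : 0 < rho s := by
  unfold rho; rw [if_pos h]; exact Real.exp_pos _

theorem rho_zero {s : ℝ} (h : 1 ≤ |s|) : rho s = 0 := by
  unfold rho; rw [if_neg (not_lt.2 h)]

theorem rho_hasCompactSupport : HasCompactSupport rho := by
  refine HasCompactSupport.intro (isCompact_Icc (a := (-1 : ℝ)) (b := 1)) fun s hs => ?_
  apply rho_zero
  by_contra h
  exact hs (abs_le.1 (not_le.1 h).le)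

theorem rho_integrable : Integrable rho :=
  rho_continuous.integrable_of_hasCompactSupport rho_hasCompactSupport

theorem kap_pos : 0 < kap := by
  unfold kap
  rw [integral_pos_iff_support_of_nonneg rho_nonneg rho_integrable]
  have : Ioo (-1 : ℝ) 1 ⊆ Function.support rho := fun s hs =>
    (rho_pos (abs_lt.2 hs)).ne'
  refine lt_of_lt_of_le ?_ (measure_mono this)
  simp [Real.volume_Ioo]

/-- the bump of slot `j` -/
noncomputable def gs (N j : ℕ) (s : ℝ) : ℝ := rho ((2 * N : ℝ) * s - (2 * j + 1))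

theorem gs_contDiff (N j : ℕ) {n : ℕ∞} : ContDiff ℝ n (gs N j) :=
  rho_contDiff.comp ((contDiff_const.mul contDiff_id).sub contDiff_const)

theorem gs_continuous (N j : ℕ) : Continuous (gs N j) := (gs_contDiff N j (n := 0)).continuous

theorem gs_nonneg (N j : ℕ) (s : ℝ) : 0 ≤ gs N j s := rho_nonneg _

theorem gs_zero {N j : ℕ} (hN : 0 < N) {s : ℝ} (hs : s ≤ j / N ∨ (j + 1 : ℕ) / N ≤ s) :
    gs N j s = 0 := by
  have hN' : (0 : ℝ) < N := by exact_mod_cast hN
  apply rho_zero
  rcases hs with hs | hs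
  · rw [le_div_iff₀ hN'] at hs
    rw [le_abs]; right; linarith
  · rw [div_le_iff₀ hN'] at hs
    rw [le_abs]; left; push_cast at *; linarith

theorem gs_hasCompactSupport {N : ℕ} (hN : 0 < N) (j : ℕ) : HasCompactSupport (gs N j) := by
  refine HasCompactSupport.intro (isCompact_Icc (a := ((j : ℝ) / N)) (b := ((j + 1 : ℕ) : ℝ) / N))
    fun s hs => ?_
  apply gs_zero hN
  rw [mem_Icc, not_and_or, not_le, not_le] at hs
  rcases hs with hs | hs
  · exact Or.inl hs.le
  · exact Or.inr hs.le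

/-- the normalised window functions -/
noncomputable def win (N j : ℕ) (s : ℝ) : ℝ := (2 * N / kap) * gs N j s

theorem win_integral {N : ℕ} (hN : 0 < N) (j : ℕ) :
    ∫ s in ((j : ℝ) / N)..((j + 1 : ℕ) / N), win N j s = 1 := by
  have hN' : (0 : ℝ) < N := by exact_mod_cast hN
  unfold win gs
  rw [intervalIntegral.integral_const_mul]
  have h1 := intervalIntegral.integral_comp_mul_sub (a := ((j : ℝ) / N))
    (b := ((j + 1 : ℕ) / N)) (c := (2 * N : ℝ)) (f := rho) (by positivity) (2 * j + 1 : ℝ)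
  rw [h1]
  have e1 : (2 * N : ℝ) * (j / N) - (2 * j + 1) = -1 := by field_simp; ring
  have e2 : (2 * N : ℝ) * ((j + 1 : ℕ) / N) - (2 * j + 1) = 1 := by
    push_cast; field_simp; ring
  rw [e1, e2]
  have h2 : ∫ s in (-1 : ℝ)..1, rho s = kap := by
    unfold kap
    rw [intervalIntegral.integral_of_le (by norm_num), ← integral_indicator measurableSet_Ioc]
    congr 1
    funext s
    by_cases hs : s ∈ Ioc (-1 : ℝ) 1
    · rw [indicator_of_mem hs]
    · rw [indicator_of_notMem hs, rho_zero]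
      by_contra h
      have := abs_lt.1 (not_le.1 h)
      exact hs ⟨this.1, this.2.le⟩
  rw [h2, smul_eq_mul]
  have := kap_pos
  field_simp

/-- The time functions: slot `0` is used once, the others periodically. -/
noncomputable def th (N : ℕ) (j : Fin N) (t : ℝ) : ℝ :=
  if (j : ℕ) = 0 then win N 0 t else (2 * N / kap) * per (gs N j) t

theorem gs_zero_of {N : ℕ} (hN : 0 < N) {j : ℕ} (hj : j < N) {s : ℝ} (hs : s ≤ 0 ∨ 1 ≤ s) :
    gs N j s = 0 := by
  have hN' : (0 : ℝ) < N := by exact_mod_cast hN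
  apply gs_zero hN
  rcases hs with hs | hs
  · left; exact hs.trans (by positivity)
  · right
    refine le_trans ?_ hs
    rw [div_le_one hN']
    exact_mod_cast hj

theorem th_contDiff {N : ℕ} (j : Fin N) {n : ℕ∞} : ContDiff ℝ n (th N j) := by
  have hN : 0 < N := lt_of_le_of_lt (Nat.zero_le _) j.2
  unfold th
  split_ifs
  · exact contDiff_const.mul (gs_contDiff N 0)
  · exact contDiff_const.mul (per_contDiff (gs_hasCompactSupport hN _) (gs_contDiff _ _))

theorem th_nonneg {N : ℕ} (j : Fin N) (t : ℝ) : 0 ≤ th N j t := by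
  have hN : 0 < N := lt_of_le_of_lt (Nat.zero_le _) j.2
  have hk := kap_pos
  unfold th
  split_ifs
  · exact mul_nonneg (by positivity) (gs_nonneg _ _ _)
  · refine mul_nonneg (by positivity) ?_
    rw [per_eq_fract (fun y hy => gs_zero_of hN j.2 hy)]
    exact gs_nonneg _ _ _

/-- `per (gs N j)` on the `n`-th window. -/
theorem per_gs_of_mem {N : ℕ} {j : ℕ} (hj : j < N) {n : ℕ} {s : ℝ}
    (h1 : (n : ℝ) / N ≤ s) (h2 : s ≤ (n + 1 : ℕ) / N) :
    per (gs N j) s = gs N j (s - (n / N : ℕ)) := by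
  have hN : 0 < N := lt_of_le_of_lt (Nat.zero_le _) hj
  have hN' : (0 : ℝ) < N := by exact_mod_cast hN
  have e1 : per (gs N j) s = per (gs N j) (s - (n / N : ℕ)) := by
    rw [← per_add_int (gs N j) (s - (n / N : ℕ)) ((n / N : ℕ) : ℤ)]
    congr 1; rw [Int.cast_natCast]; ring
  rw [e1, per_eq_self (fun y hy => gs_zero_of hN hj hy)]
  · have : ((n / N : ℕ) : ℝ) ≤ (n : ℝ) / N := Nat.cast_div_le
    linarith
  · have h3 : n + 1 ≤ (n / N + 1) * N := by
      have := Nat.lt_div_mul_add (a := n) hN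
      nlinarith
    have h4 : ((n + 1 : ℕ) : ℝ) / N ≤ ((n / N : ℕ) : ℝ) + 1 := by
      rw [div_le_iff₀ hN']; exact_mod_cast h3
    linarith

theorem th_off {N : ℕ} (n : ℕ) (j : Fin N) (hj : (j : ℕ) ≠ n % N ∨ ((j : ℕ) = 0 ∧ 0 < n))
    (s : ℝ) (h1 : (n : ℝ) / N ≤ s) (h2 : s ≤ (n + 1 : ℕ) / N) : th N j s = 0 := by
  have hN : 0 < N := lt_of_le_of_lt (Nat.zero_le _) j.2
  have hN' : (0 : ℝ) < N := by exact_mod_cast hN
  unfold th
  split_ifs with h0
  · unfold win
    rw [gs_zero hN, mul_zero]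
    right
    refine le_trans ?_ h1
    gcongr
    have : 0 < n := by
      rcases hj with hj | hj
      · by_contra hn
        have hn : n = 0 := by omega
        subst hn
        simp at hj
        exact hj h0
      · exact hj.2
    omega
  · rw [per_gs_of_mem j.2 h1 h2, gs_zero hN, mul_zero]
    have hne : (j : ℕ) ≠ n % N := by
      rcases hj with hj | hj
      · exact hj
      · exact absurd hj.1 h0
    have hn : (n : ℝ) = ((n / N : ℕ) : ℝ) * N + (n % N : ℕ) := by
      exact_mod_cast (Nat.div_add_mod' n N).symm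
    have e1 : (n : ℝ) / N - (n / N : ℕ) = (n % N : ℕ) / N := by
      field_simp
      linarith
    have e2 : ((n + 1 : ℕ) : ℝ) / N - (n / N : ℕ) = ((n % N + 1 : ℕ) : ℝ) / N := by
      push_cast
      field_simp
      linarith
    rcases lt_or_gt_of_ne hne with hlt | hgt
    · right
      have h3 : ((j : ℕ) + 1 : ℕ) / (N : ℝ) ≤ (n % N : ℕ) / N := by
        gcongr; exact_mod_cast hlt
      linarith
    · left
      have h3 : ((n % N + 1 : ℕ) : ℝ) / N ≤ ((j : ℕ) : ℝ) / N := by
        gcongr; exact_mod_cast hgt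
      linarith

/-- integral over the `n`-th window. -/
theorem th_integral {N : ℕ} (n : ℕ) (j : Fin N) (hj : (j : ℕ) = n % N)
    (h0 : (j : ℕ) ≠ 0 ∨ n = 0) :
    ∫ s in ((n : ℝ) / N)..((n + 1 : ℕ) / N), th N j s = 1 := by
  have hN : 0 < N := lt_of_le_of_lt (Nat.zero_le _) j.2
  have hN' : (0 : ℝ) < N := by exact_mod_cast hN
  by_cases hj0 : (j : ℕ) = 0
  · have hn : n = 0 := by tauto
    subst hn
    have : th N j = win N 0 := by funext t; unfold th; rw [if_pos hj0]
    rw [this]
    exact win_integral hN 0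
  · have hle : (n : ℝ) / N ≤ ((n + 1 : ℕ) : ℝ) / N := by
      gcongr; omega
    have e0 : ∀ s ∈ uIcc ((n : ℝ) / N) (((n + 1 : ℕ) : ℝ) / N),
        th N j s = win N j (s - (n / N : ℕ)) := by
      intro s hs
      rw [uIcc_of_le hle] at hs
      unfold th win
      rw [if_neg hj0, per_gs_of_mem j.2 hs.1 hs.2]
    rw [intervalIntegral.integral_congr e0,
      intervalIntegral.integral_comp_sub_right (fun s => win N j s)]
    have hn : (n : ℝ) = ((n / N : ℕ) : ℝ) * N + (n % N : ℕ) := by
      exact_mod_cast (Nat.div_add_mod' n N).symm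
    have e1 : (n : ℝ) / N - (n / N : ℕ) = (j : ℕ) / N := by
      rw [hj]
      field_simp
      linarith
    have e2 : ((n + 1 : ℕ) : ℝ) / N - (n / N : ℕ) = (((j : ℕ) + 1 : ℕ) : ℝ) / N := by
      rw [hj]
      push_cast
      field_simp
      linarith
    rw [e1, e2]
    exact win_integral hN j

end Vale.Agent.P113.H854
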